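import Mathlib

/-! Euclidean Ramsey sets, transitive and subtransitive finite sets, and kites. -/

namespace Vale.Agent.P058

/-- A set is Ramsey if for every number of colours some Euclidean space has, for every colouring,
a monochromatic image of the set under a map preserving all its pairwise distances. -/
def IsRamsey {d : ℕ} (A : Set (EuclideanSpace ℝ (Fin d))) : Prop :=
  ∀ r : ℕ, 2 ≤ r → ∃ D : ℕ, 1 ≤ D ∧ ∀ c : EuclideanSpace ℝ (Fin D) → Fin r,
    ∃ f : EuclideanSpace ℝ (Fin d) → EuclideanSpace ℝ (Fin D),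
      (∀ x ∈ A, ∀ y ∈ A, dist (f x) (f y) = dist x y) ∧ ∃ k, ∀ x ∈ A, c (f x) = k

/-- A set is transitive if the isometries of the ambient space mapping it onto itself act
transitively on it. -/
def IsTransitive {n : ℕ} (Y : Set (EuclideanSpace ℝ (Fin n))) : Prop :=
  ∀ a ∈ Y, ∀ b ∈ Y,
    ∃ g : EuclideanSpace ℝ (Fin n) ≃ᵢ EuclideanSpace ℝ (Fin n), g '' Y = Y ∧ g a = b

/-- A set is subtransitive if some map preserving its pairwise distances sends it into a finite
transitive set of some Euclidean space. -/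
def IsSubtransitive {d : ℕ} (A : Set (EuclideanSpace ℝ (Fin d))) : Prop :=
  ∃ n : ℕ, ∃ Y : Set (EuclideanSpace ℝ (Fin n)), Y.Finite ∧ IsTransitive Y ∧
    ∃ f : EuclideanSpace ℝ (Fin d) → EuclideanSpace ℝ (Fin n),
      (∀ x ∈ A, ∀ y ∈ A, dist (f x) (f y) = dist x y) ∧ ∀ x ∈ A, f x ∈ Y

/-- The four vertices of the cyclic kite with parameter `p`. -/
noncomputable def kitePts (p : ℝ) : Fin 4 → EuclideanSpace ℝ (Fin 2) :=
  ![!₂[0, 0], !₂[1, 0], !₂[p, Real.sqrt (p * (1 - p))], !₂[p, -Real.sqrt (p * (1 - p))]]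

/-- The kite with parameter `p`, as a set. -/
noncomputable def kite (p : ℝ) : Set (EuclideanSpace ℝ (Fin 2)) := Set.range (kitePts p)

end Vale.Agent.P058
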