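import Vale.Agent.P058.LRW.Defs

/-! Families of placements of fixed words. -/

namespace Vale.Agent.P058

variable {κ ι : Type}

/-- The vector obtained by writing the word `w` at the positions `π`. -/
def place {L P : ℕ} (π : Fin L → Fin P) (w : Fin L → ℝ) : Fin P → ℝ :=
  fun t => ∑ l, if π l = t then w l else 0

/-- There are words, one for each `a : κ`, and for each `i : ι` increasing placements of these
words, such that the squared distances of the placed vectors for `i` are given by `D i`. -/
def Fam (D : ι → κ → κ → ℝ) : Prop :=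
  ∃ (L P : ℕ) (w : κ → Fin L → ℝ) (π : ι → κ → Fin L → Fin P),
    (∀ i a, StrictMono (π i a)) ∧
      ∀ i a b, ∑ t, (place (π i a) (w a) t - place (π i b) (w b) t) ^ 2 = D i a b

theorem place_apply_of_forall_ne {L P : ℕ} {π : Fin L → Fin P} {w : Fin L → ℝ} {t : Fin P}
    (h : ∀ l, π l ≠ t) : place π w t = 0 :=
  Finset.sum_eq_zero fun l _ => if_neg (h l)

theorem place_apply_self {L P : ℕ} {π : Fin L → Fin P} (hπ : Function.Injective π)
    (w : Fin L → ℝ) (l : Fin L) : place π w (π l) = w l := by
  rw [place, Finset.sum_eq_single l]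
  · simp
  · intro l' _ hl'
    rw [if_neg (fun e => hl' (hπ e))]
  · simp

theorem fam_zero : Fam (fun (_ : ι) (_ _ : κ) => (0 : ℝ)) :=
  ⟨0, 0, fun _ => Fin.elim0, fun _ _ => Fin.elim0, fun _ _ i => i.elim0, by simp⟩

theorem Fam.congr {D D' : ι → κ → κ → ℝ} (h : Fam D) (e : ∀ i a b, D i a b = D' i a b) :
    Fam D' := by
  obtain ⟨L, P, w, π, hm, hD⟩ := h
  exact ⟨L, P, w, π, hm, fun i a b => by rw [hD, e]⟩

theorem Fam.comap {ι' : Type} {D : ι → κ → κ → ℝ} (h : Fam D) (u : ι' → ι) :
    Fam (fun i => D (u i)) := by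
  obtain ⟨L, P, w, π, hm, hD⟩ := h
  exact ⟨L, P, w, fun i => π (u i), fun i a => hm _ _, fun i a b => hD _ _ _⟩

theorem Fam.perm {D : ι → κ → κ → ℝ} (h : Fam D) (u : κ → κ) :
    Fam (fun i a b => D i (u a) (u b)) := by
  obtain ⟨L, P, w, π, hm, hD⟩ := h
  exact ⟨L, P, fun a => w (u a), fun i a => π i (u a), fun i a => hm _ _, fun i a b => hD _ _ _⟩

theorem Fam.smul {D : ι → κ → κ → ℝ} (h : Fam D) {c : ℝ} (hc : 0 ≤ c) :
    Fam (fun i a b => c * D i a b) := by
  obtain ⟨L, P, w, π, hm, hD⟩ := h
  refine ⟨L, P, fun a l => Real.sqrt c * w a l, π, hm, fun i a b => ?_⟩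
  have e : ∀ a t, place (π i a) (fun l => Real.sqrt c * w a l) t
      = Real.sqrt c * place (π i a) (w a) t := by
    intro a t
    simp only [place, Finset.mul_sum, mul_ite, mul_zero]
  beta_reduce
  rw [← hD, Finset.mul_sum]
  refine Finset.sum_congr rfl fun t _ => ?_
  rw [e, e, ← mul_sub, mul_pow, Real.sq_sqrt hc]

theorem Fam.add {D D' : ι → κ → κ → ℝ} (h : Fam D) (h' : Fam D') :
    Fam (fun i a b => D i a b + D' i a b) := by
  obtain ⟨L, P, w, π, hm, hD⟩ := h
  obtain ⟨L', P', w', π', hm', hD'⟩ := h'
  refine ⟨L + L', P + P', fun a => Fin.append (w a) (w' a),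
    fun i a => Fin.append (fun l => Fin.castAdd P' (π i a l)) (fun l => Fin.natAdd P (π' i a l)),
    fun i a => ?_, fun i a b => ?_⟩
  · intro x
    refine Fin.addCases (fun l => ?_) (fun l => ?_) x <;> intro y <;>
      refine Fin.addCases (fun l' => ?_) (fun l' => ?_) y <;> intro hxy <;> beta_reduce
    · rw [Fin.append_left, Fin.append_left]
      have : l < l' := hxy
      exact hm i a this
    · rw [Fin.append_left, Fin.append_right, Fin.lt_def, Fin.val_castAdd, Fin.val_natAdd]
      have := (π i a l).isLt
      omega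
    · rw [Fin.lt_def, Fin.val_castAdd, Fin.val_natAdd] at hxy
      have := l'.isLt
      omega
    · rw [Fin.append_right, Fin.append_right, Fin.lt_def, Fin.val_natAdd, Fin.val_natAdd]
      have h1 : l < l' := by
        rw [Fin.lt_def, Fin.val_natAdd, Fin.val_natAdd] at hxy
        rw [Fin.lt_def]
        omega
      have h2 := hm' i a h1
      rw [Fin.lt_def] at h2
      omega
  · have hl : ∀ a (t : Fin P), place (Fin.append (fun l => Fin.castAdd P' (π i a l))
        (fun l => Fin.natAdd P (π' i a l))) (Fin.append (w a) (w' a)) (Fin.castAdd P' t)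
        = place (π i a) (w a) t := by
      intro a t
      rw [place, Fin.sum_univ_add]
      have e2 : ∀ l : Fin L', Fin.natAdd P (π' i a l) ≠ Fin.castAdd P' t := by
        intro l e
        have := congrArg Fin.val e
        rw [Fin.val_castAdd, Fin.val_natAdd] at this
        have := t.isLt
        omega
      simp only [Fin.append_left, Fin.append_right, if_neg (e2 _), Finset.sum_const_zero,
        add_zero, (Fin.castAdd_injective P P').eq_iff, place]
    have hr : ∀ a (t : Fin P'), place (Fin.append (fun l => Fin.castAdd P' (π i a l))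
        (fun l => Fin.natAdd P (π' i a l))) (Fin.append (w a) (w' a)) (Fin.natAdd P t)
        = place (π' i a) (w' a) t := by
      intro a t
      rw [place, Fin.sum_univ_add]
      have e2 : ∀ l : Fin L, Fin.castAdd P' (π i a l) ≠ Fin.natAdd P t := by
        intro l e
        have := congrArg Fin.val e
        rw [Fin.val_castAdd, Fin.val_natAdd] at this
        have := (π i a l).isLt
        omega
      simp only [Fin.append_left, Fin.append_right, if_neg (e2 _), Finset.sum_const_zero,
        zero_add, (Fin.natAdd_injective P' P).eq_iff, place]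
    beta_reduce
    rw [Fin.sum_univ_add]
    simp only [hl, hr, hD, hD']

theorem Fam.sum {σ : Type} (s : Finset σ) {D : σ → ι → κ → κ → ℝ} (h : ∀ j ∈ s, Fam (D j)) :
    Fam (fun i a b => ∑ j ∈ s, D j i a b) := by
  classical
  induction s using Finset.induction_on with
  | empty => exact fam_zero.congr (by simp)
  | insert j s hj ih =>
    have h1 := (h j (Finset.mem_insert_self j s)).add
      (ih fun k hk => h k (Finset.mem_insert_of_mem hk))
    exact h1.congr fun i a b => by rw [Finset.sum_insert hj]

/-- One coordinate which is never moved. -/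
theorem fam_const (c : κ → ℝ) : Fam (fun (_ : ι) a b => (c a - c b) ^ 2) := by
  refine ⟨1, 1, fun a _ => c a, fun _ _ l => l, fun _ _ => strictMono_id, fun i a b => ?_⟩
  simp [place]

/-- From two levels of one system of words to all levels `1 / (h + 1)`. -/
theorem fam_levels (E : κ → κ → ℝ) (N : ℕ) {a b : ℝ} (ha : 0 < a) (hb : 0 ≤ b)
    (hab : ((N : ℝ) + 1) * b ≤ a) (h : Fam (fun (i : Bool) x y => (if i then a else b) * E x y)) :
    Fam (fun (i : Fin (N + 1)) x y => (1 / ((i : ℝ) + 1)) * E x y) := by
  rcases Nat.eq_zero_or_pos N with hN | hN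
  · subst hN
    refine ((h.comap (fun _ => true)).smul (le_of_lt (inv_pos.2 ha))).congr fun i x y => ?_
    have : (i : ℕ) = 0 := by omega
    simp [this, ha.ne']
  have hba : b < a := by
    have : (1 : ℝ) < (N : ℝ) + 1 := by
      have : (1 : ℝ) ≤ (N : ℝ) := by exact_mod_cast hN
      linarith
    rcases hb.lt_or_eq with hb' | hb'
    · nlinarith
    · linarith
  -- `s j` is the total weight of the units from `j` on
  let s : ℕ → ℝ := fun j => if j ≤ N then (a / ((j : ℝ) + 1) - b) / (a - b) else 0
  have hs0 : ∀ j, j ≤ N → 0 ≤ s j := by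
    intro j hj
    simp only [s, if_pos hj]
    apply div_nonneg _ (by linarith)
    rw [sub_nonneg, le_div_iff₀ (by positivity)]
    have : (j : ℝ) ≤ N := by exact_mod_cast hj
    nlinarith
  have hs1 : ∀ j, j ≤ N → 0 ≤ s j - s (j + 1) := by
    intro j hj
    rcases Nat.lt_or_ge j N with hj' | hj'
    · simp only [s, if_pos hj, if_pos (show j + 1 ≤ N by omega)]
      rw [sub_nonneg]
      apply div_le_div_of_nonneg_right _ (by linarith)
      apply sub_le_sub_right
      apply div_le_div_of_nonneg_left ha.le (by positivity)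
      push_cast
      linarith
    · have : s (j + 1) = 0 := if_neg (by omega)
      rw [this, sub_zero]
      exact hs0 j hj
  have hsum : Fam (fun (i : Fin (N + 1)) x y => ∑ j ∈ Finset.range (N + 1),
      (s j - s (j + 1)) / a * ((if decide ((i : ℕ) ≤ j) then a else b) * E x y)) := by
    refine Fam.sum _ fun j hj => ?_
    have hj' : j ≤ N := by
      have := Finset.mem_range.1 hj
      omega
    exact (h.comap (fun i : Fin (N + 1) => decide ((i : ℕ) ≤ j))).smul
      (div_nonneg (hs1 j hj') ha.le)
  refine hsum.congr fun i x y => ?_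
  have key : ∀ m, m ≤ N + 1 → ∑ j ∈ Finset.range m,
      (s j - s (j + 1)) * (if (i : ℕ) ≤ j then a else b)
      = b * (s 0 - s m) + (a - b) * (if (i : ℕ) ≤ m then s i - s m else 0) := by
    intro m
    induction m with
    | zero =>
      intro _
      by_cases hi : (i : ℕ) ≤ 0
      · have : (i : ℕ) = 0 := by omega
        simp [this]
      · simp [hi]
    | succ m ih =>
      intro hm
      rw [Finset.sum_range_succ, ih (by omega)]
      by_cases h1 : (i : ℕ) ≤ m
      · rw [if_pos h1, if_pos h1, if_pos (by omega : (i : ℕ) ≤ m + 1)]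
        ring
      · rw [if_neg h1, if_neg h1]
        by_cases h2 : (i : ℕ) ≤ m + 1
        · have : (i : ℕ) = m + 1 := by omega
          rw [if_pos h2, this]
          ring
        · rw [if_neg h2]
          ring
  have key' := key (N + 1) le_rfl
  have hi : (i : ℕ) ≤ N := by omega
  have e1 : s 0 = 1 := by
    simp only [s, Nat.zero_le, if_true, Nat.cast_zero, zero_add, div_one]
    exact div_self (by linarith)
  have e2 : s (N + 1) = 0 := if_neg (by omega)
  rw [if_pos (by omega : (i : ℕ) ≤ N + 1), e1, e2, sub_zero, sub_zero, mul_one] at key'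
  have e3 : s i = (a / ((i : ℝ) + 1) - b) / (a - b) := if_pos hi
  rw [e3, mul_div_cancel₀ _ (by linarith : a - b ≠ 0)] at key'
  have e4 : ∀ j ∈ Finset.range (N + 1),
      (s j - s (j + 1)) / a * ((if decide ((i : ℕ) ≤ j) then a else b) * E x y)
      = (s j - s (j + 1)) * (if (i : ℕ) ≤ j then a else b) * (E x y / a) := by
    intro j _
    simp only [decide_eq_true_eq]
    ring
  rw [Finset.sum_congr rfl e4, ← Finset.sum_mul, key']
  field_simp
  ring

end Vale.Agent.P058
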