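import Vale.Agent.P058.LRW.Ramsey

/-! Every cyclic kite is Ramsey. -/

namespace Vale.Agent.P058

/-- First coefficient of a vertex with respect to the frame of the kite. -/
def alphaC (p : ℝ) : Fin 4 → ℝ := ![0, 1, p, p]

/-- Second coefficient of a vertex with respect to the frame of the kite. -/
noncomputable def betaC : Fin 4 → ℝ := ![0, 0, 1 / 2, -1 / 2]

/-- The squared distances in terms of the three moments of a frame. -/
noncomputable def form (p E G C : ℝ) (a b : Fin 4) : ℝ :=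
  (alphaC p a - alphaC p b) ^ 2 * E + (betaC a - betaC b) ^ 2 * G
    + 2 * ((alphaC p a - alphaC p b) * (betaC a - betaC b)) * C

theorem form_add (p E G C E' G' C' : ℝ) (a b : Fin 4) :
    form p E G C a b + form p E' G' C' a b = form p (E + E') (G + G') (C + C') a b := by
  simp only [form]
  ring

theorem form_swap (p E G C : ℝ) (a b : Fin 4) :
    form p E G C (Equiv.swap 2 3 a) (Equiv.swap 2 3 b) = form p E G (-C) a b := by
  fin_cases a <;> fin_cases b <;>
    simp [form, alphaC, betaC, Equiv.swap_apply_def] <;> ring_nf <;> simp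

theorem dist_kitePts {p : ℝ} (hp : 0 ≤ p) (hp1 : p ≤ 1) (a b : Fin 4) :
    dist (kitePts p a) (kitePts p b) ^ 2 = form p 1 (4 * p * (1 - p)) 0 a b := by
  have hq : 0 ≤ p * (1 - p) := mul_nonneg hp (sub_nonneg.2 hp1)
  have hs := Real.sq_sqrt hq
  rw [EuclideanSpace.dist_eq, Real.sq_sqrt (Finset.sum_nonneg fun i _ => sq_nonneg _)]
  simp only [kitePts]
  generalize Real.sqrt (p * (1 - p)) = q at hs ⊢
  fin_cases a <;> fin_cases b <;>
    simp [form, alphaC, betaC, Fin.sum_univ_two, Real.dist_eq, sq_abs] <;>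
    ring_nf <;> nlinarith [hs]

theorem rel_coord {p y0 y1 y2 y3 : ℝ} (h : y2 + y3 = 2 * (1 - p) * y0 + 2 * p * y1) (a b : Fin 4) :
    (![y0, y1, y2, y3] a - ![y0, y1, y2, y3] b) ^ 2
      = form p ((y1 - y0) ^ 2) ((y2 - y3) ^ 2) ((y1 - y0) * (y2 - y3)) a b := by
  have e3 : y3 = 2 * (1 - p) * y0 + 2 * p * y1 - y2 := by linarith
  subst e3
  fin_cases a <;> fin_cases b <;> simp [form, alphaC, betaC] <;> ring

theorem rel_norms {p y0 y1 y2 y3 : ℝ} (h : y2 + y3 = 2 * (1 - p) * y0 + 2 * p * y1) :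
    y2 ^ 2 + y3 ^ 2 - 2 * (1 - p) * y0 ^ 2 - 2 * p * y1 ^ 2
      = ((y2 - y3) ^ 2 - 4 * p * (1 - p) * (y1 - y0) ^ 2) / 2 := by
  have e3 : y3 = 2 * (1 - p) * y0 + 2 * p * y1 - y2 := by linarith
  subst e3
  ring

/-- The shift used by a row at the two levels. -/
def shiftAt (s : Fin 4 → ℤ) (i : Bool) (a : Fin 4) : ℤ := if i then 0 else s a

theorem shiftAt_bound {s : Fin 4 → ℤ} {R : ℕ} (hs : ∀ a, -(R : ℤ) ≤ s a ∧ s a ≤ R)
    (i : Bool) (a : Fin 4) : -(R : ℤ) ≤ shiftAt s i a ∧ shiftAt s i a ≤ R := by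
  cases i
  · simpa [shiftAt] using hs a
  · simp [shiftAt]

theorem fam_shift (lo : ℤ) (n R : ℕ) (W : Fin 4 → ℤ → ℝ) (s : Fin 4 → ℤ)
    (hs : ∀ a, -(R : ℤ) ≤ s a ∧ s a ≤ R)
    (hW : ∀ a t, (t < lo ∨ lo + n ≤ t) → W a t = 0) :
    Fam (fun (i : Bool) a b => ∑ t ∈ Finset.Ico (lo - R) (lo + n + R),
      (W a (t - shiftAt s i a) - W b (t - shiftAt s i b)) ^ 2) := by
  let π : Bool → Fin 4 → Fin n → Fin (n + 2 * R) := fun i a l =>
    ⟨((l : ℤ) + R + shiftAt s i a).toNat, by
      have := shiftAt_bound hs i a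
      have := l.isLt
      omega⟩
  have hπ : ∀ i a, StrictMono (π i a) := by
    intro i a l l' hll
    have := shiftAt_bound hs i a
    rw [Fin.lt_def] at hll ⊢
    simp only [π]
    omega
  refine ⟨n, n + 2 * R, fun a l => W a (lo + l), π, hπ, fun i a b => ?_⟩
  have hpl : ∀ c (t : Fin (n + 2 * R)), place (π i c) (fun l : Fin n => W c (lo + l)) t
      = W c (lo - R + t - shiftAt s i c) := by
    intro c t
    have hb := shiftAt_bound hs i c
    by_cases h : ∃ l, π i c l = t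
    · obtain ⟨l, rfl⟩ := h
      rw [place_apply_self (hπ i c).injective]
      congr 1
      simp only [π]
      omega
    · rw [place_apply_of_forall_ne (not_exists.1 h)]
      refine (hW c _ ?_).symm
      by_contra hn
      simp only [not_or, not_lt, not_le] at hn
      refine h ⟨⟨((t : ℤ) - R - shiftAt s i c).toNat, by omega⟩, Fin.ext ?_⟩
      simp only [π]
      omega
  simp only [hpl]
  refine Finset.sum_bij (fun (t : Fin (n + 2 * R)) _ => lo - (R : ℤ) + t) (fun t _ => ?_)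
    (fun t _ t' _ h => Fin.ext (by omega)) (fun z hz => ?_) (fun t _ => rfl)
  · have := t.isLt
    simp only [Finset.mem_Ico]
    omega
  · simp only [Finset.mem_Ico] at hz
    exact ⟨⟨(z - lo + R).toNat, by omega⟩, Finset.mem_univ _, by simp only; omega⟩

theorem sum_sq_shift (lo : ℤ) (n R : ℕ) (f : ℤ → ℝ) (c : ℤ) (hc : -(R : ℤ) ≤ c ∧ c ≤ R)
    (hf : ∀ t, (t < lo ∨ lo + n ≤ t) → f t = 0) :
    ∑ t ∈ Finset.Ico (lo - R) (lo + n + R), f (t - c) ^ 2
      = ∑ t ∈ Finset.Ico lo (lo + n), f t ^ 2 := by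
  rw [← Finset.sum_subset (s₁ := Finset.Ico (lo + c) (lo + n + c))]
  · refine Finset.sum_nbij' (fun t => t - c) (fun t => t + c) ?_ ?_ ?_ ?_ fun t _ => rfl
    all_goals intro t ht
    all_goals simp only [Finset.mem_coe, Finset.mem_Ico] at ht ⊢
    all_goals omega
  · intro t ht
    simp only [Finset.mem_Ico] at ht ⊢
    omega
  · intro t _ ht
    simp only [Finset.mem_Ico] at ht
    rw [hf _ (by omega)]
    norm_num

section Frame

variable (lo : ℤ) (n R : ℕ) (W : Fin 4 → ℤ → ℝ) (s : Fin 4 → ℤ)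

/-- The moment of the first frame vector. -/
noncomputable def momE (i : Bool) : ℝ := ∑ t ∈ Finset.Ico (lo - R) (lo + n + R),
  (W 1 (t - shiftAt s i 1) - W 0 (t - shiftAt s i 0)) ^ 2

/-- The moment of the second frame vector. -/
noncomputable def momG (i : Bool) : ℝ := ∑ t ∈ Finset.Ico (lo - R) (lo + n + R),
  (W 2 (t - shiftAt s i 2) - W 3 (t - shiftAt s i 3)) ^ 2

/-- The mixed moment. -/
noncomputable def momC (i : Bool) : ℝ := ∑ t ∈ Finset.Ico (lo - R) (lo + n + R),
  (W 1 (t - shiftAt s i 1) - W 0 (t - shiftAt s i 0))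
    * (W 2 (t - shiftAt s i 2) - W 3 (t - shiftAt s i 3))

variable {p : ℝ}

theorem fam_rel (hs : ∀ a, -(R : ℤ) ≤ s a ∧ s a ≤ R)
    (hW : ∀ a t, (t < lo ∨ lo + n ≤ t) → W a t = 0)
    (hrel : ∀ (i : Bool) t, W 2 (t - shiftAt s i 2) + W 3 (t - shiftAt s i 3)
      = 2 * (1 - p) * W 0 (t - shiftAt s i 0) + 2 * p * W 1 (t - shiftAt s i 1)) :
    Fam (fun i => form p (momE lo n R W s i) (momG lo n R W s i) (momC lo n R W s i)) := by
  refine (fam_shift lo n R W s hs hW).congr fun i a b => ?_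
  simp only [momE, momG, momC, form, Finset.mul_sum, ← Finset.sum_add_distrib]
  refine Finset.sum_congr rfl fun t _ => ?_
  have h := rel_coord (hrel i t) a b
  simp only [form] at h
  have hv : ∀ c, ![W 0 (t - shiftAt s i 0), W 1 (t - shiftAt s i 1), W 2 (t - shiftAt s i 2),
      W 3 (t - shiftAt s i 3)] c = W c (t - shiftAt s i c) := by
    intro c
    fin_cases c <;> rfl
  rwa [hv a, hv b] at h

theorem mom_invariant (hs : ∀ a, -(R : ℤ) ≤ s a ∧ s a ≤ R)
    (hW : ∀ a t, (t < lo ∨ lo + n ≤ t) → W a t = 0)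
    (hrel : ∀ (i : Bool) t, W 2 (t - shiftAt s i 2) + W 3 (t - shiftAt s i 3)
      = 2 * (1 - p) * W 0 (t - shiftAt s i 0) + 2 * p * W 1 (t - shiftAt s i 1)) :
    momG lo n R W s false - 4 * p * (1 - p) * momE lo n R W s false
      = momG lo n R W s true - 4 * p * (1 - p) * momE lo n R W s true := by
  let T : Fin 4 → ℝ := fun a => ∑ t ∈ Finset.Ico lo (lo + n), W a t ^ 2
  have key : ∀ i : Bool, momG lo n R W s i - 4 * p * (1 - p) * momE lo n R W s i
      = 2 * (T 2 + T 3 - 2 * (1 - p) * T 0 - 2 * p * T 1) := by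
    intro i
    have e : ∀ a, T a = ∑ t ∈ Finset.Ico (lo - R) (lo + n + R), W a (t - shiftAt s i a) ^ 2 :=
      fun a => (sum_sq_shift lo n R (W a) _ (shiftAt_bound hs i a) (hW a)).symm
    rw [e 0, e 1, e 2, e 3]
    simp only [momE, momG, Finset.mul_sum, ← Finset.sum_sub_distrib, ← Finset.sum_add_distrib]
    refine Finset.sum_congr rfl fun t _ => ?_
    have := rel_norms (hrel i t)
    linarith
  rw [key, key]

end Frame

section Words

variable (p θ δ : ℝ) (M L : ℕ)

/-- A windowed sinusoid shifted by `j`. -/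
noncomputable def wave (j t : ℤ) : ℝ :=
  if 0 ≤ t - j ∧ t - j < L then Real.cos (θ * ((j : ℝ) - t) + δ) else 0

/-- The auxiliary word. -/
noncomputable def waveR (j t : ℤ) : ℝ :=
  -2 * (1 - p) * wave θ δ L (M + j) t + 2 * p * wave θ δ L j t

/-- The four words. -/
noncomputable def words (S : ℕ) : Fin 4 → ℤ → ℝ :=
  ![fun t => -(wave θ δ L S t - wave θ δ L (-(S : ℤ)) t),
    fun t => wave θ δ L S t - wave θ δ L (-(S : ℤ)) t,
    fun t => (4 * p - 2) * wave θ δ L S t - waveR p θ δ M L 0 t,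
    fun t => waveR p θ δ M L 0 t - (4 * p - 2) * wave θ δ L (-(S : ℤ)) t]

/-- The four shifts. -/
def shifts (S : ℕ) : Fin 4 → ℤ := ![(M : ℤ), 0, -(S : ℤ), (S : ℤ)]

variable {p θ δ M L}

theorem wave_shift (j t c : ℤ) : wave θ δ L j (t - c) = wave θ δ L (j + c) t := by
  simp only [wave, show t - c - j = t - (j + c) by ring]
  push_cast
  ring_nf

theorem waveR_shift (j t c : ℤ) : waveR p θ δ M L j (t - c) = waveR p θ δ M L (j + c) t := by
  simp only [waveR, wave_shift, add_assoc]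

theorem abs_wave_le (j t : ℤ) : |wave θ δ L j t| ≤ 1 := by
  unfold wave
  split_ifs
  · exact Real.abs_cos_le_one _
  · simp

theorem wave_eq_zero {j t : ℤ} (h : t < j ∨ j + L ≤ t) : wave θ δ L j t = 0 := by
  unfold wave
  rw [if_neg]
  omega

theorem words_support {S : ℕ} (hS : S ≤ M) (a : Fin 4) (t : ℤ)
    (h : t < -3 * (M : ℤ) ∨ -3 * (M : ℤ) + (L + 6 * M : ℕ) ≤ t) : words p θ δ M L S a t = 0 := by
  have h1 : wave θ δ L S t = 0 := wave_eq_zero (by push_cast at h; omega)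
  have h2 : wave θ δ L (-(S : ℤ)) t = 0 := wave_eq_zero (by push_cast at h; omega)
  have h3 : wave θ δ L 0 t = 0 := wave_eq_zero (by push_cast at h; omega)
  have h4 : wave θ δ L M t = 0 := wave_eq_zero (by push_cast at h; omega)
  fin_cases a <;> simp [words, waveR, h1, h2, h3, h4]

theorem words_moved {S : ℕ} (a : Fin 4) (t : ℤ) :
    words p θ δ M L S a (t - shiftAt (shifts M S) false a)
      = ![-(wave θ δ L (M + S) t - wave θ δ L (M + -(S : ℤ)) t),
          wave θ δ L S t - wave θ δ L (-(S : ℤ)) t,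
          (4 * p - 2) * wave θ δ L 0 t - waveR p θ δ M L (-(S : ℤ)) t,
          waveR p θ δ M L S t - (4 * p - 2) * wave θ δ L 0 t] a := by
  have e0 : shiftAt (shifts M S) false a = shifts M S a := rfl
  rw [e0]
  fin_cases a
  · show -(wave θ δ L S (t - (M : ℤ)) - wave θ δ L (-(S : ℤ)) (t - (M : ℤ))) = _
    rw [wave_shift, wave_shift, add_comm (S : ℤ), add_comm (-(S : ℤ))]
    rfl
  · show wave θ δ L S (t - 0) - wave θ δ L (-(S : ℤ)) (t - 0) = _
    rw [sub_zero]
    rfl
  · show (4 * p - 2) * wave θ δ L S (t - -(S : ℤ)) - waveR p θ δ M L 0 (t - -(S : ℤ)) = _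
    rw [wave_shift, waveR_shift, add_neg_cancel, zero_add]
    rfl
  · show waveR p θ δ M L 0 (t - (S : ℤ)) - (4 * p - 2) * wave θ δ L (-(S : ℤ)) (t - (S : ℤ)) = _
    rw [wave_shift, waveR_shift, neg_add_cancel, zero_add]
    rfl

theorem words_rel {S : ℕ} (i : Bool) (t : ℤ) :
    words p θ δ M L S 2 (t - shiftAt (shifts M S) i 2)
        + words p θ δ M L S 3 (t - shiftAt (shifts M S) i 3)
      = 2 * (1 - p) * words p θ δ M L S 0 (t - shiftAt (shifts M S) i 0)
        + 2 * p * words p θ δ M L S 1 (t - shiftAt (shifts M S) i 1) := by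
  cases i
  · simp only [words_moved]
    simp [waveR]
    ring
  · simp only [shiftAt, if_true, sub_zero]
    simp [words]
    ring

end Words

theorem exists_shift {p θ : ℝ} (hp : 0 ≤ p) (hp1 : p ≤ 1) {M : ℕ} (hθ : θ * M = Real.pi)
    (hθ0 : 0 < θ) :
    ∃ S : ℕ, S ≤ M ∧ |Real.cos (θ * S) - (2 * p - 1)| ≤ θ := by
  let φ := Real.arccos (2 * p - 1)
  have hφ0 : 0 ≤ φ := Real.arccos_nonneg _
  have hφ1 : φ ≤ Real.pi := Real.arccos_le_pi _
  have hcos : Real.cos φ = 2 * p - 1 := Real.cos_arccos (by linarith) (by linarith)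
  refine ⟨⌊φ / θ⌋₊, ?_, ?_⟩
  · refine Nat.floor_le_of_le ?_
    rw [div_le_iff₀ hθ0]
    linarith
  · rw [← hcos]
    refine (Real.abs_cos_sub_cos_le _ _).trans ?_
    have h1 := Nat.floor_le (div_nonneg hφ0 hθ0.le)
    have h2 := Nat.lt_floor_add_one (φ / θ)
    rw [le_div_iff₀ hθ0] at h1
    rw [div_lt_iff₀ hθ0] at h2
    rw [abs_le]
    constructor <;> nlinarith

theorem estimates {p θ : ℝ} (hp : 0 ≤ p) (hp1 : p ≤ 1) {M L S : ℕ} (hθ : θ * M = Real.pi)
    (hSM : S ≤ M) (hL : 4 * M ≤ L) (hS : |Real.cos (θ * S) - (2 * p - 1)| ≤ θ) :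
    let E := fun δ i => momE (-3 * (M : ℤ)) (L + 6 * M) M (words p θ δ M L S) (shifts M S) i
    let G := fun δ i => momG (-3 * (M : ℤ)) (L + 6 * M) M (words p θ δ M L S) (shifts M S) i
    ((L : ℝ) - 4 * M) * (16 * Real.sin (θ * S) ^ 2) ≤ E 0 true + E (-Real.pi / 2) true ∧
      ∀ δ, E δ false ≤ 768 * M ∧ G δ false ≤ 16 * θ ^ 2 * L + 768 * M := by
  intro E G
  have hT : Finset.Ico (-3 * (M : ℤ) - M) (-3 * (M : ℤ) + (L + 6 * M : ℕ) + M)
      = Finset.Ico (-4 * (M : ℤ)) (L + 4 * M) := by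
    congr 1 <;> push_cast <;> ring
  have hmid : Finset.Ico (2 * (M : ℤ)) (L - 2 * M) ⊆ Finset.Ico (-4 * (M : ℤ)) (L + 4 * M) :=
    Finset.Ico_subset_Ico (by omega) (by omega)
  have hw : ∀ δ (j : ℤ) t, t ∈ Finset.Ico (2 * (M : ℤ)) (L - 2 * M) →
      -2 * (M : ℤ) ≤ j → j ≤ 2 * M →
      wave θ δ L j t = Real.cos (θ * ((j : ℝ) - t) + δ) := by
    intro δ j t ht hj1 hj2
    rw [Finset.mem_Ico] at ht
    unfold wave
    rw [if_pos ⟨by omega, by omega⟩]
  have hM : ∀ δ (j : ℤ) t, t ∈ Finset.Ico (2 * (M : ℤ)) (L - 2 * M) →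
      -(M : ℤ) ≤ j → j ≤ M →
      wave θ δ L (M + j) t = -Real.cos (θ * ((j : ℝ) - t) + δ) := by
    intro δ j t ht hj1 hj2
    rw [hw δ _ t ht (by omega) (by omega), ← Real.cos_add_pi]
    congr 1
    push_cast
    linear_combination hθ
  refine ⟨?_, fun δ => ⟨?_, ?_⟩⟩
  · simp only [E, momE, hT, shiftAt, if_true, sub_zero, ← Finset.sum_add_distrib]
    refine le_trans ?_ (Finset.sum_le_sum_of_subset_of_nonneg hmid fun t _ _ => by positivity)
    rw [Finset.sum_congr rfl (g := fun _ => 16 * Real.sin (θ * S) ^ 2)]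
    · rw [Finset.sum_const, nsmul_eq_mul, Int.card_Ico]
      refine le_of_eq ?_
      congr 1
      rw [show ((L : ℤ) - 2 * M - 2 * M).toNat = L - 4 * M by omega, Nat.cast_sub hL]
      push_cast
      ring
    · intro t ht
      simp only [words, Matrix.cons_val_one, Matrix.cons_val_zero]
      rw [hw 0 _ t ht (by omega) (by omega), hw 0 _ t ht (by omega) (by omega),
        hw (-Real.pi / 2) _ t ht (by omega) (by omega),
        hw (-Real.pi / 2) _ t ht (by omega) (by omega)]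
      simp only [neg_div, ← sub_eq_add_neg, Real.cos_sub_pi_div_two, add_zero]
      push_cast
      simp only [mul_sub, mul_neg, Real.cos_sub, Real.sin_sub, Real.cos_neg, Real.sin_neg]
      linear_combination (16 * Real.sin (θ * S) ^ 2) * Real.sin_sq_add_cos_sq (θ * t)
  · simp only [E, momE, hT]
    rw [← Finset.sum_sdiff hmid, Finset.sum_eq_zero (s := Finset.Ico (2 * (M : ℤ)) (L - 2 * M)),
      add_zero]
    · refine (Finset.sum_le_card_nsmul _ _ 64 fun t _ => ?_).trans ?_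
      · simp only [words_moved, Matrix.cons_val_one, Matrix.cons_val_zero]
        have h1 := abs_le.1 (abs_wave_le (θ := θ) (δ := δ) (L := L) (S : ℤ) t)
        have h2 := abs_le.1 (abs_wave_le (θ := θ) (δ := δ) (L := L) (-(S : ℤ)) t)
        have h3 := abs_le.1 (abs_wave_le (θ := θ) (δ := δ) (L := L) ((M : ℤ) + S) t)
        have h4 := abs_le.1 (abs_wave_le (θ := θ) (δ := δ) (L := L) ((M : ℤ) + -(S : ℤ)) t)
        nlinarith
      · rw [Finset.card_sdiff_of_subset hmid, Int.card_Ico, Int.card_Ico, nsmul_eq_mul,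
          show ((L : ℤ) + 4 * M - -4 * M).toNat - ((L : ℤ) - 2 * M - 2 * M).toNat = 12 * M by
            omega]
        push_cast
        linarith
    · intro t ht
      simp only [words_moved, Matrix.cons_val_one, Matrix.cons_val_zero]
      rw [hM δ _ t ht (by omega) (by omega), hM δ _ t ht (by omega) (by omega),
        hw δ _ t ht (by omega) (by omega), hw δ _ t ht (by omega) (by omega)]
      ring
  · simp only [G, momG, hT]
    rw [← Finset.sum_sdiff hmid]
    refine le_trans (add_le_add (Finset.sum_le_card_nsmul _ _ 64 fun t _ => ?_)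
      (Finset.sum_le_card_nsmul _ _ (16 * θ ^ 2) fun t ht => ?_)) ?_
    · simp only [words_moved, Matrix.cons_val]
      simp only [waveR]
      have h1 := abs_le.1 (abs_wave_le (θ := θ) (δ := δ) (L := L) (S : ℤ) t)
      have h2 := abs_le.1 (abs_wave_le (θ := θ) (δ := δ) (L := L) (-(S : ℤ)) t)
      have h3 := abs_le.1 (abs_wave_le (θ := θ) (δ := δ) (L := L) ((M : ℤ) + S) t)
      have h4 := abs_le.1 (abs_wave_le (θ := θ) (δ := δ) (L := L) ((M : ℤ) + -(S : ℤ)) t)
      have h5 := abs_le.1 (abs_wave_le (θ := θ) (δ := δ) (L := L) 0 t)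
      have hbd : ∀ x : ℝ, -8 ≤ x → x ≤ 8 → x ^ 2 ≤ 64 := fun x _ _ => by nlinarith
      refine hbd _ ?_ ?_ <;> nlinarith
    · simp only [words_moved, Matrix.cons_val]
      simp only [waveR]
      rw [hM δ _ t ht (by omega) (by omega), hM δ _ t ht (by omega) (by omega),
        hw δ _ t ht (by omega) (by omega), hw δ _ t ht (by omega) (by omega),
        hw δ _ t ht (by omega) (by omega)]
      push_cast
      have e1 : θ * ((S : ℝ) - t) + δ = (δ - θ * t) + θ * S := by ring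
      have e2 : θ * (-(S : ℝ) - t) + δ = (δ - θ * t) - θ * S := by ring
      have e3 : θ * ((0 : ℝ) - t) + δ = δ - θ * t := by ring
      rw [e1, e2, e3, Real.cos_add, Real.cos_sub (δ - θ * t)]
      have hbd : ∀ x c : ℝ, |c| ≤ 1 → ∀ z : ℝ, |x - (2 * p - 1)| ≤ z →
          (4 * c * (x - (2 * p - 1))) ^ 2 ≤ 16 * z ^ 2 := by
        intro x c hc z hz
        rw [show (4 * c * (x - (2 * p - 1))) ^ 2 = 16 * (|c| * |x - (2 * p - 1)|) ^ 2 by
          rw [mul_pow |c|, sq_abs, sq_abs]; ring]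
        gcongr
        calc |c| * |x - (2 * p - 1)| ≤ 1 * z :=
              mul_le_mul hc hz (abs_nonneg _) zero_le_one
          _ = z := one_mul z
      refine le_of_eq_of_le ?_ (hbd _ _ (Real.abs_cos_le_one (δ - θ * t)) θ hS)
      ring
    · rw [Finset.card_sdiff_of_subset hmid, Int.card_Ico, Int.card_Ico, nsmul_eq_mul,
        nsmul_eq_mul,
        show ((L : ℤ) + 4 * M - -4 * M).toNat - ((L : ℤ) - 2 * M - 2 * M).toNat = 12 * M by
          omega,
        show ((L : ℤ) - 2 * M - 2 * M).toNat = L - 4 * M by omega, Nat.cast_sub hL]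
      push_cast
      nlinarith [mul_nonneg (Nat.cast_nonneg (α := ℝ) M) (sq_nonneg θ)]

theorem arith_core {k θ N₁ L M EA EB GB : ℝ} (hk : 0 < k) (hθ0 : 0 ≤ θ) (hN : 1 ≤ N₁)
    (hθk : 4 * N₁ * θ ≤ k) (hL0 : 0 ≤ L)
    (hL : 32 * k * M + N₁ * (1536 * M) * (1 + 1 / k) ≤ 4 * k * L)
    (hEA : 8 * k * (L - 4 * M) ≤ EA) (hEB : EB ≤ 1536 * M)
    (hGB : GB ≤ 32 * θ ^ 2 * L + 1536 * M) : N₁ * (EB + GB / k) ≤ EA := by
  have h1 : EB + GB / k ≤ 1536 * M + (32 * θ ^ 2 * L + 1536 * M) / k :=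
    add_le_add hEB (div_le_div_of_nonneg_right hGB hk.le)
  have h2 := mul_le_mul_of_nonneg_left h1 (by linarith : (0 : ℝ) ≤ N₁)
  have hθ : N₁ * (32 * θ ^ 2) ≤ 4 * k * k := by
    have hsq : (4 * N₁ * θ) ^ 2 ≤ k ^ 2 := pow_le_pow_left₀ (by positivity) hθk 2
    have : 0 ≤ N₁ * θ ^ 2 * (N₁ - 1) :=
      mul_nonneg (mul_nonneg (by linarith) (sq_nonneg θ)) (by linarith)
    linarith [mul_nonneg (sq_nonneg θ) (by linarith : (0 : ℝ) ≤ N₁), sq_nonneg (N₁ * θ)]
  have h3 : N₁ * (32 * θ ^ 2 * L / k) ≤ 4 * k * L := by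
    rw [← mul_div_assoc, div_le_iff₀ hk]
    linarith [mul_le_mul_of_nonneg_right hθ hL0]
  have h4 : N₁ * (1536 * M + (32 * θ ^ 2 * L + 1536 * M) / k)
      = N₁ * (1536 * M) * (1 + 1 / k) + N₁ * (32 * θ ^ 2 * L / k) := by
    field_simp
    ring
  linarith

theorem exists_frame {p k : ℝ} (hp : 0 < p) (hp1 : p < 1) (hk : k = 4 * p * (1 - p)) (N : ℕ) :
    ∃ E G : Bool → ℝ, (Fam fun i => form p (2 * E i) (2 * G i) 0) ∧
      G false - k * E false = G true - k * E true ∧ (∀ i, 0 ≤ E i) ∧ (∀ i, 0 ≤ G i) ∧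
        0 < E true ∧ ((N : ℝ) + 1) * (E false + G false / k) ≤ E true := by
  have hk0 : 0 < k := by rw [hk]; nlinarith
  obtain ⟨M, hM⟩ := exists_nat_gt (4 * Real.pi * ((N : ℝ) + 1) / k)
  have hM0 : (0 : ℝ) < M := lt_of_le_of_lt (by positivity) hM
  obtain ⟨θ, hθdef⟩ : ∃ θ : ℝ, θ = Real.pi / M := ⟨_, rfl⟩
  have hθ0 : 0 < θ := by rw [hθdef]; positivity
  have hθ : θ * M = Real.pi := by rw [hθdef]; field_simp
  have hθk : 4 * ((N : ℝ) + 1) * θ ≤ k := by
    rw [hθdef, ← mul_div_assoc, div_le_iff₀ hM0]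
    rw [div_lt_iff₀ hk0] at hM
    linarith
  obtain ⟨S, hSM, hS⟩ := exists_shift hp.le hp1.le hθ hθ0
  obtain ⟨L, hL⟩ := exists_nat_gt
    ((32 * k * M + ((N : ℝ) + 1) * (1536 * M) * (1 + 1 / k)) / (4 * k))
  rw [div_lt_iff₀ (by positivity)] at hL
  have hN : (1 : ℝ) ≤ (N : ℝ) + 1 := le_add_of_nonneg_left (Nat.cast_nonneg N)
  have hpos : 0 ≤ ((N : ℝ) + 1) * (1536 * M) * (1 + 1 / k) := by positivity
  have hL8 : (8 : ℝ) * M ≤ L := by nlinarith
  have hL4 : 4 * M ≤ L := by
    have : (4 : ℝ) * M ≤ L := by linarith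
    exact_mod_cast this
  have hest := estimates hp.le hp1.le hθ hSM hL4 hS
  simp only at hest
  obtain ⟨hEA, hB⟩ := hest
  have hsh : ∀ a, -(M : ℤ) ≤ shifts M S a ∧ shifts M S a ≤ M := by
    intro a
    fin_cases a <;> simp [shifts] <;> omega
  have hfam := fun δ => fam_rel (p := p) (-3 * (M : ℤ)) (L + 6 * M) M (words p θ δ M L S)
    (shifts M S) hsh (fun a t h => words_support hSM a t h) (fun i t => words_rel i t)
  have hinv := fun δ => mom_invariant (p := p) (-3 * (M : ℤ)) (L + 6 * M) M (words p θ δ M L S)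
    (shifts M S) hsh (fun a t h => words_support hSM a t h) (fun i t => words_rel i t)
  refine ⟨fun i => momE (-3 * (M : ℤ)) (L + 6 * M) M (words p θ 0 M L S) (shifts M S) i
      + momE (-3 * (M : ℤ)) (L + 6 * M) M (words p θ (-Real.pi / 2) M L S) (shifts M S) i,
    fun i => momG (-3 * (M : ℤ)) (L + 6 * M) M (words p θ 0 M L S) (shifts M S) i
      + momG (-3 * (M : ℤ)) (L + 6 * M) M (words p θ (-Real.pi / 2) M L S) (shifts M S) i,
    ?_, ?_, fun i => ?_, fun i => ?_, ?_, ?_⟩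
  · have h1 := (hfam 0).add (hfam (-Real.pi / 2))
    refine (h1.add (h1.perm (Equiv.swap 2 3))).congr fun i a b => ?_
    simp only [form_swap, form_add]
    simp only [form]
    ring
  · have h1 := hinv 0
    have h2 := hinv (-Real.pi / 2)
    simp only
    rw [hk]
    linarith
  · exact add_nonneg (Finset.sum_nonneg fun t _ => sq_nonneg _)
      (Finset.sum_nonneg fun t _ => sq_nonneg _)
  · exact add_nonneg (Finset.sum_nonneg fun t _ => sq_nonneg _)
      (Finset.sum_nonneg fun t _ => sq_nonneg _)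
  all_goals
    have hsin : k / 2 ≤ Real.sin (θ * S) ^ 2 := by
      rw [Real.sin_sq]
      have h1 := abs_le.1 hS
      have h2 := Real.neg_one_le_cos (θ * S)
      have h3 := Real.cos_le_one (θ * S)
      have h4 : θ ≤ k / 4 := by nlinarith
      rw [hk] at h4 ⊢
      nlinarith
    have hEA' : 8 * k * ((L : ℝ) - 4 * M) ≤ ((L : ℝ) - 4 * M) * (16 * Real.sin (θ * S) ^ 2) := by
      nlinarith
  · refine lt_of_lt_of_le ?_ (hEA'.trans hEA)
    exact mul_pos (by positivity) (by linarith)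
  · obtain ⟨a1, a2⟩ := hB 0
    obtain ⟨b1, b2⟩ := hB (-Real.pi / 2)
    refine arith_core hk0 hθ0.le hN hθk (Nat.cast_nonneg L) (M := M) (by linarith)
      (hEA'.trans hEA) ?_ ?_
    · linarith
    · linarith

theorem fam_pair_kite {p : ℝ} (hp : 0 < p) (hp1 : p < 1) (N : ℕ) :
    ∃ a b : ℝ, 0 < a ∧ 0 ≤ b ∧ ((N : ℝ) + 1) * b ≤ a ∧
      Fam (fun (i : Bool) x y =>
        (if i then a else b) * dist (kitePts p x) (kitePts p y) ^ 2) := by
  obtain ⟨k, hk⟩ : ∃ k : ℝ, k = 4 * p * (1 - p) := ⟨_, rfl⟩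
  have hk0 : 0 < k := by rw [hk]; nlinarith
  obtain ⟨E, G, hf2, hd, hE0, hG0, hEtrue, hkey⟩ := exists_frame hp hp1 hk N
  have hN : (0 : ℝ) ≤ (N : ℝ) + 1 := by positivity
  have hform : ∀ a x y, a * dist (kitePts p x) (kitePts p y) ^ 2 = form p a (k * a) 0 x y := by
    intro a x y
    rw [dist_kitePts hp.le hp1.le, hk]
    simp only [form]
    ring
  rcases le_total 0 (G true - k * E true) with hpos' | hneg
  · refine ⟨2 * G true / k, 2 * G false / k, ?_, ?_, ?_, ?_⟩
    · have : 0 < G true := by nlinarith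
      positivity
    · have := hG0 false
      positivity
    · have h : E true ≤ G true / k := by
        rw [le_div_iff₀ hk0]
        linarith
      have h' : ((N : ℝ) + 1) * (G false / k) ≤ E true :=
        (mul_le_mul_of_nonneg_left (by linarith [hE0 false]) hN).trans hkey
      rw [mul_div_assoc, mul_div_assoc]
      linarith
    · refine (hf2.add (fam_const fun x =>
        Real.sqrt (2 * (G true - k * E true) / k) * alphaC p x)).congr fun i x y => ?_
      rw [hform, ← mul_sub, mul_pow, Real.sq_sqrt (by positivity)]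
      cases i
      · simp only [form, Bool.false_eq_true, if_false]
        rw [← hd]
        field_simp
        ring
      · simp only [form, if_true]
        field_simp
        ring
  · refine ⟨2 * E true, 2 * E false, by linarith, by linarith [hE0 false], ?_, ?_⟩
    · have h0 : 0 ≤ G false / k := div_nonneg (hG0 false) hk0.le
      have h' : ((N : ℝ) + 1) * E false ≤ E true :=
        (mul_le_mul_of_nonneg_left (by linarith) hN).trans hkey
      linarith
    · refine (hf2.add (fam_const fun x =>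
        Real.sqrt (2 * (k * E true - G true)) * betaC x)).congr fun i x y => ?_
      rw [hform, ← mul_sub, mul_pow, Real.sq_sqrt (by linarith)]
      cases i
      · simp only [form, Bool.false_eq_true, if_false]
        rw [show k * E true - G true = k * E false - G false by linarith]
        ring
      · simp only [form, if_true]
        ring

/-- Every cyclic kite is Ramsey. -/
theorem isRamsey_kite {p : ℝ} (hp : 0 < p) (hp1 : p < 1) : IsRamsey (kite p) := by
  refine isRamsey_of_fam (kitePts p) fun N => ?_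
  obtain ⟨a, b, ha, hb, hab, h⟩ := fam_pair_kite hp hp1 N
  exact fam_levels _ N ha hb hab h

end Vale.Agent.P058
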