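import Vale.Agent.P058.LRW.Kite

/-! All but countably many cyclic kites are not subtransitive. -/

namespace Vale.Agent.P058

open scoped Polynomial

section Translates

variable {m : ℕ} {R : Type*} [CommRing R]

/-- The affine relation of the kite, written on four given indices. -/
def relVec (x : R) (i : Fin 4 → Fin m) : Fin m → R :=
  Pi.single (i 2) 1 + Pi.single (i 3) 1 - (2 * (1 - x)) • Pi.single (i 0) 1
    - (2 * x) • Pi.single (i 1) 1

/-- The difference of the first two of four given indices. -/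
def diffVec (i : Fin 4 → Fin m) : Fin m → R := Pi.single (i 1) 1 - Pi.single (i 0) 1

theorem relVec_map {R' : Type*} [CommRing R'] (φ : R →+* R') (x : R) (i : Fin 4 → Fin m)
    (a : Fin m) : φ (relVec x i a) = relVec (φ x) i a := by
  simp [relVec, Pi.single_apply, apply_ite φ, map_ofNat]

theorem diffVec_map {R' : Type*} [CommRing R'] (φ : R →+* R') (i : Fin 4 → Fin m)
    (a : Fin m) : φ (diffVec i a) = diffVec i a := by
  simp [diffVec, Pi.single_apply, apply_ite φ]

end Translates

/-- A set of permutations which is transitive and closed under composition. -/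
def TransClosed {m : ℕ} (G : Finset (Equiv.Perm (Fin m))) : Prop :=
  (∀ σ ∈ G, ∀ τ ∈ G, σ * τ ∈ G) ∧ ∀ a b, ∃ σ ∈ G, σ a = b

/-- The span of the translates of the relation. -/
def relSpan {m : ℕ} (G : Finset (Equiv.Perm (Fin m))) (i : Fin 4 → Fin m) (x : ℝ) :
    Submodule ℝ (Fin m → ℝ) :=
  Submodule.span ℝ (Set.range fun σ : G => relVec x fun k => σ.1 (i k))

theorem quad_rel {V : Type*} [NormedAddCommGroup V] [InnerProductSpace ℝ V] {p : ℝ}
    (y : Fin 4 → V) (h : ∀ a b, ‖y a - y b‖ ^ 2 = form p 1 (4 * p * (1 - p)) 0 a b) :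
    y 2 + y 3 - (2 * (1 - p)) • y 0 - (2 * p) • y 1 = 0 := by
  have e : y 2 + y 3 - (2 * (1 - p)) • y 0 - (2 * p) • y 1
      = (y 2 - y 0) + (y 3 - y 0) - (2 * p) • (y 1 - y 0) := by module
  have h20 := h 2 0
  have h30 := h 3 0
  have h10 := h 1 0
  have h21 := h 2 1
  have h31 := h 3 1
  have h23 := h 2 3
  rw [e, ← norm_eq_zero]
  rw [← sub_sub_sub_cancel_right (y 2) (y 1) (y 0), norm_sub_sq_real] at h21
  rw [← sub_sub_sub_cancel_right (y 3) (y 1) (y 0), norm_sub_sq_real] at h31
  rw [← sub_sub_sub_cancel_right (y 2) (y 3) (y 0), norm_sub_sq_real] at h23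
  generalize y 2 - y 0 = a at *
  generalize y 3 - y 0 = b at *
  generalize y 1 - y 0 = c at *
  refine pow_eq_zero_iff (n := 2) (by norm_num) |>.1 ?_
  rw [norm_sub_sq_real, norm_add_sq_real, inner_add_left, real_inner_smul_right,
    real_inner_smul_right, norm_smul, mul_pow, Real.norm_eq_abs, sq_abs]
  simp only [form, alphaC, betaC, Matrix.cons_val] at h20 h30 h10 h21 h31 h23
  linear_combination (2 - 2 * p) * h20 + (2 - 2 * p) * h30 + (4 * p ^ 2 - 4 * p) * h10 - h23
    + (2 * p) * h21 + (2 * p) * h31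

theorem exists_bad_data {p : ℝ} (hp : 0 ≤ p) (hp1 : p ≤ 1) (h : IsSubtransitive (kite p)) :
    ∃ (m : ℕ) (G : Finset (Equiv.Perm (Fin m))) (i : Fin 4 → Fin m),
      TransClosed G ∧ diffVec i ∉ relSpan G i p := by
  classical
  obtain ⟨n, Y, hY, htr, f, hf, hfY⟩ := h
  have := hY.to_subtype
  obtain ⟨m, ⟨e⟩⟩ := Finite.exists_equiv_fin Y
  let y : Fin m → EuclideanSpace ℝ (Fin n) := fun a => (e.symm a : EuclideanSpace ℝ (Fin n))
  let G : Finset (Equiv.Perm (Fin m)) :=
    Finset.univ.filter fun σ => ∀ a b, dist (y (σ a)) (y (σ b)) = dist (y a) (y b)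
  let i : Fin 4 → Fin m := fun k => e ⟨f (kitePts p k), hfY _ ⟨k, rfl⟩⟩
  refine ⟨m, G, i, ⟨fun σ hσ τ hτ => ?_, fun a b => ?_⟩, ?_⟩
  · simp only [G, Finset.mem_filter, Finset.mem_univ, true_and] at hσ hτ ⊢
    intro a b
    rw [Equiv.Perm.mul_apply, Equiv.Perm.mul_apply, hσ, hτ]
  · obtain ⟨g, hg, hgab⟩ := htr (y a) (e.symm a).2 (y b) (e.symm b).2
    have hmem : ∀ c, g (y c) ∈ Y := fun c => by
      have : g (y c) ∈ g '' Y := ⟨_, (e.symm c).2, rfl⟩
      rwa [hg] at this
    let s : Fin m → Fin m := fun c => e ⟨g (y c), hmem c⟩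
    have hs : ∀ c, y (s c) = g (y c) := fun c => by simp [y, s]
    have hinj : Function.Injective s := by
      intro c c' hcc
      have := congrArg y hcc
      rw [hs, hs] at this
      exact e.symm.injective (Subtype.ext (g.injective this))
    refine ⟨Equiv.ofBijective s (Finite.injective_iff_bijective.1 hinj), ?_, ?_⟩
    · simp only [G, Finset.mem_filter, Finset.mem_univ, true_and, Equiv.ofBijective_apply]
      intro c c'
      rw [hs, hs, g.dist_eq]
    · rw [Equiv.ofBijective_apply]
      refine e.symm.injective (Subtype.ext ?_)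
      exact (hs a).trans hgab
  · intro hw
    let T := Fintype.linearCombination ℝ y
    have hT : ∀ a, T (Pi.single a 1) = y a := fun a => by
      simp [T, Fintype.linearCombination_apply_single]
    have hi : ∀ k, y (i k) = f (kitePts p k) := fun k => by simp [y, i]
    have hd : ∀ a b, dist (y (i a)) (y (i b)) = dist (kitePts p a) (kitePts p b) := fun a b => by
      rw [hi, hi, hf _ ⟨a, rfl⟩ _ ⟨b, rfl⟩]
    have hker : relSpan G i p ≤ LinearMap.ker T := by
      refine Submodule.span_le.2 ?_
      rintro _ ⟨⟨σ, hσ⟩, rfl⟩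
      simp only [G, Finset.mem_filter, Finset.mem_univ, true_and] at hσ
      simp only [relVec, SetLike.mem_coe, LinearMap.mem_ker, map_sub, map_add, map_smul, hT]
      refine quad_rel (fun k => y (σ (i k))) fun a b => ?_
      rw [← dist_eq_norm, hσ, hd, dist_kitePts hp hp1]
    have h0 := hker hw
    simp only [diffVec, LinearMap.mem_ker, map_sub, hT] at h0
    have h1 := hd 1 0
    rw [dist_eq_norm, h0, norm_zero] at h1
    have h2 := dist_kitePts hp hp1 1 0
    rw [← h1] at h2
    simp [form, alphaC, betaC] at h2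

theorem mem_relSpan_of_one_lt {m : ℕ} {G : Finset (Equiv.Perm (Fin m))} (hG : TransClosed G)
    (i : Fin 4 → Fin m) {x : ℝ} (hx : 1 < x) : diffVec i ∈ relSpan G i x := by
  classical
  let Φ : (Fin m → ℝ) ≃ₗ[ℝ] EuclideanSpace ℝ (Fin m) := (WithLp.linearEquiv 2 ℝ (Fin m → ℝ)).symm
  let V : Submodule ℝ (EuclideanSpace ℝ (Fin m)) := (relSpan G i x).map Φ.toLinearMap
  let P := Vᗮ.starProjection
  let e : Fin m → EuclideanSpace ℝ (Fin m) := fun a => EuclideanSpace.single a 1
  have hΦ : ∀ a, Φ (Pi.single a 1) = e a := fun a => rfl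
  have hle : ∀ a b, ‖P (e b)‖ ≤ ‖P (e a)‖ := by
    intro a b
    obtain ⟨τ, hτ, rfl⟩ := hG.2 a b
    let T := LinearIsometryEquiv.piLpCongrLeft 2 ℝ ℝ τ
    have hTe : ∀ c, T (e c) = e (τ c) := fun c => EuclideanSpace.piLpCongrLeft_single τ c 1
    have hTV : V ≤ V.comap T.toLinearEquiv.toLinearMap := by
      refine Submodule.map_le_iff_le_comap.2 (Submodule.span_le.2 ?_)
      rintro _ ⟨⟨σ, hσ⟩, rfl⟩
      simp only [SetLike.mem_coe, Submodule.mem_comap]
      refine ⟨relVec x (fun k => (τ * σ) (i k)),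
        Submodule.subset_span ⟨⟨τ * σ, hG.1 τ hτ σ hσ⟩, rfl⟩, ?_⟩
      simp only [relVec, LinearEquiv.coe_coe, LinearIsometryEquiv.coe_toLinearEquiv, map_sub,
        map_add, map_smul, hΦ, hTe, Equiv.Perm.mul_apply]
    have h1 : P (T (e a)) = P (T (P (e a))) := by
      have hmem : e a - P (e a) ∈ V := by
        simp only [P, Submodule.starProjection_orthogonal_val, sub_sub_cancel]
        exact V.starProjection_apply_mem _
      have := Submodule.starProjection_orthogonal_apply_eq_zero (K := V)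
        (v := T (e a - P (e a))) (hTV hmem)
      rw [map_sub, map_sub, sub_eq_zero] at this
      exact this
    rw [← hTe, h1]
    exact (Submodule.norm_starProjection_apply_le _ _).trans (T.norm_map _).le
  have hP : ∀ a b, ‖P (e a)‖ = ‖P (e b)‖ := fun a b => le_antisymm (hle b a) (hle a b)
  obtain ⟨σ, hσ, -⟩ := hG.2 (i 0) (i 0)
  obtain ⟨k, hk⟩ : ∃ k, σ ^ k = 1 ∧ 0 < k := ⟨orderOf σ, pow_orderOf_eq_one σ, orderOf_pos σ⟩
  have hone : (1 : Equiv.Perm (Fin m)) ∈ G := by
    have hpow : ∀ j, σ ^ (j + 1) ∈ G := by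
      intro j
      induction j with
      | zero => simpa using hσ
      | succ j ih =>
        rw [pow_succ]
        exact hG.1 _ ih _ hσ
    obtain ⟨j, rfl⟩ : ∃ j, k = j + 1 := ⟨k - 1, by omega⟩
    rw [← hk.1]
    exact hpow j
  have hrel : P (e (i 2)) + P (e (i 3)) - (2 * (1 - x)) • P (e (i 0))
      - (2 * x) • P (e (i 1)) = 0 := by
    have : Φ (relVec x i) ∈ V :=
      Submodule.mem_map_of_mem (Submodule.subset_span ⟨⟨1, hone⟩, rfl⟩)
    have := Submodule.starProjection_orthogonal_apply_eq_zero (K := V) this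
    simpa only [relVec, map_sub, map_add, map_smul, hΦ] using this
  have hPw0 : P (Φ (diffVec i)) = P (e (i 1)) - P (e (i 0)) := by
    simp only [diffVec, map_sub, hΦ]
  have hn : ∀ j, ‖P (e (i j))‖ = ‖P (e (i 0))‖ := fun j => hP _ _
  have h2 := hn 2
  have h3 := hn 3
  have h1 := hn 1
  generalize P (e (i 0)) = a at *
  generalize P (e (i 1)) = b at *
  generalize P (e (i 2)) = c at *
  generalize P (e (i 3)) = d at *
  have hcd : c + d = (2 * (1 - x)) • a + (2 * x) • b := by
    rwa [sub_sub, sub_eq_zero] at hrel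
  have hsq : ‖c - d‖ ^ 2 = 4 * x * (1 - x) * ‖b - a‖ ^ 2 := by
    have e1 : ‖c + d‖ ^ 2 = ‖(2 * (1 - x)) • a + (2 * x) • b‖ ^ 2 := by rw [hcd]
    rw [norm_add_sq_real, norm_add_sq_real, norm_smul, norm_smul, mul_pow, mul_pow,
      Real.norm_eq_abs, Real.norm_eq_abs, sq_abs, sq_abs, real_inner_smul_left,
      real_inner_smul_right, h2, h3, h1] at e1
    rw [norm_sub_sq_real, norm_sub_sq_real, h2, h3, h1, real_inner_comm a b]
    linear_combination -e1
  have hab : ‖b - a‖ ^ 2 = 0 := by
    refine le_antisymm ?_ (sq_nonneg _)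
    by_contra hne
    have h4 : 4 * x * (1 - x) < 0 := by nlinarith
    have := sq_nonneg ‖c - d‖
    nlinarith [not_le.1 hne]
  have hPw : P (Φ (diffVec i)) = 0 := by
    have hba := sub_eq_zero.1 (norm_eq_zero.1 (pow_eq_zero_iff (n := 2) (by norm_num) |>.1 hab))
    rw [hPw0, hba, sub_self]
  rw [Submodule.starProjection_apply_eq_zero_iff, Submodule.orthogonal_orthogonal] at hPw
  obtain ⟨v, hv, hv'⟩ := hPw
  rwa [← Φ.injective hv']

theorem finite_bad {m : ℕ} {G : Finset (Equiv.Perm (Fin m))} (hG : TransClosed G)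
    (i : Fin 4 → Fin m) : {x : ℝ | diffVec i ∉ relSpan G i x}.Finite := by
  classical
  let K := RatFunc ℝ
  let al : ℝ[X] →+* K := algebraMap ℝ[X] K
  have hal : Function.Injective al := IsFractionRing.injective ℝ[X] K
  let vK : G → Fin m → K := fun σ => relVec (al Polynomial.X) fun k => σ.1 (i k)
  by_cases hspan : (diffVec i : Fin m → K) ∈ Submodule.span K (Set.range vK)
  · obtain ⟨c, hc⟩ := Submodule.mem_span_range_iff_exists_fun K |>.1 hspan
    obtain ⟨⟨d, hd⟩, hcd⟩ :=
      IsLocalization.exist_integer_multiples_of_finite (nonZeroDivisors ℝ[X]) c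
    choose q hq using hcd
    have hpoly : ∀ a, d * diffVec i a
        = ∑ σ : G, q σ * relVec Polynomial.X (fun k => σ.1 (i k)) a := by
      intro a
      refine hal ?_
      rw [map_mul, map_sum, diffVec_map, ← congrFun hc a, Finset.sum_apply, Finset.mul_sum]
      refine Finset.sum_congr rfl fun σ _ => ?_
      rw [map_mul, relVec_map]
      have := hq σ
      rw [Algebra.smul_def] at this
      simp only [al, this, vK, Pi.smul_apply, smul_eq_mul, mul_assoc]
    have hd0 : d ≠ 0 := nonZeroDivisors.ne_zero hd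
    refine (Polynomial.finite_setOf_isRoot hd0).subset fun x hx => ?_
    by_contra hroot
    refine hx ?_
    have hev : ∀ a, d.eval x * diffVec i a
        = ∑ σ : G, (q σ).eval x * relVec x (fun k => σ.1 (i k)) a := by
      intro a
      have := congrArg (Polynomial.evalRingHom x) (hpoly a)
      rw [map_mul, map_sum, diffVec_map] at this
      simpa [map_mul, relVec_map] using this
    refine (Submodule.mem_span_range_iff_exists_fun ℝ).2
      ⟨fun σ => (q σ).eval x / d.eval x, funext fun a => ?_⟩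
    have hdx : d.eval x ≠ 0 := hroot
    rw [Finset.sum_apply]
    simp only [Pi.smul_apply, smul_eq_mul, div_mul_eq_mul_div, ← Finset.sum_div]
    rw [div_eq_iff hdx, mul_comm (diffVec i a), hev]
  · exfalso
    obtain ⟨g, hg, hgV⟩ := Submodule.exists_dual_map_eq_bot_of_notMem hspan inferInstance
    obtain ⟨⟨d, hd⟩, hcd⟩ := IsLocalization.exist_integer_multiples_of_finite
      (nonZeroDivisors ℝ[X]) fun a => g (Pi.single a 1)
    choose q hq using hcd
    have hgen : ∀ z : Fin m → ℝ[X], al (∑ a, q a * z a) = al d * g (fun a => al (z a)) := by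
      intro z
      rw [map_sum, pi_eq_sum_univ (fun a => al (z a)), map_sum, Finset.mul_sum]
      refine Finset.sum_congr rfl fun a _ => ?_
      have := hq a
      rw [Algebra.smul_def] at this
      have e : (fun j => if a = j then (1 : K) else 0) = Pi.single a 1 := by
        funext j
        simp [Pi.single_apply, eq_comm]
      rw [map_mul, map_smul, e, smul_eq_mul]
      simp only [al, this]
      ring
    have hd0 : al d ≠ 0 := by
      rw [map_ne_zero_iff al hal]
      exact nonZeroDivisors.ne_zero hd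
    have hzero : ∀ σ : G, ∑ a, q a * relVec Polynomial.X (fun k => σ.1 (i k)) a = 0 := by
      intro σ
      refine hal ?_
      rw [hgen, map_zero]
      have hv : vK σ ∈ Submodule.span K (Set.range vK) := Submodule.subset_span ⟨σ, rfl⟩
      have := Submodule.mem_map_of_mem (f := g) hv
      rw [hgV, Submodule.mem_bot] at this
      simp only [relVec_map]
      exact mul_eq_zero_of_right _ this
    have hne : ∑ a, q a * (diffVec i a : ℝ[X]) ≠ 0 := by
      intro h
      have := hgen (fun a => diffVec i a)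
      rw [h, map_zero] at this
      simp only [diffVec_map] at this
      exact mul_ne_zero hd0 hg this.symm
    refine (Set.Ioi_infinite (1 : ℝ)) ((Polynomial.finite_setOf_isRoot hne).subset fun x hx => ?_)
    obtain ⟨c, hc⟩ :=
      (Submodule.mem_span_range_iff_exists_fun ℝ).1 (mem_relSpan_of_one_lt hG i hx)
    rw [Set.mem_ofPred_eq, Polynomial.IsRoot, ← Polynomial.coe_evalRingHom, map_sum]
    simp only [map_mul, diffVec_map]
    rw [← hc]
    simp only [Finset.sum_apply, Pi.smul_apply, smul_eq_mul, Finset.mul_sum]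
    rw [Finset.sum_comm]
    refine Finset.sum_eq_zero fun σ _ => ?_
    have := congrArg (Polynomial.evalRingHom x) (hzero σ)
    rw [map_sum, map_zero] at this
    simp only [map_mul, relVec_map, Polynomial.coe_evalRingHom, Polynomial.eval_X] at this ⊢
    rw [← mul_zero (c σ), ← this, Finset.mul_sum]
    exact Finset.sum_congr rfl fun a _ => by ring

/-- Only countably many cyclic kites are subtransitive. -/
theorem countable_subtransitive :
    {p : ℝ | 0 < p ∧ p < 1 ∧ IsSubtransitive (kite p)}.Countable := by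
  classical
  let B : (Σ m : ℕ, Finset (Equiv.Perm (Fin m)) × (Fin 4 → Fin m)) → Set ℝ := fun s =>
    if TransClosed s.2.1 then {x : ℝ | diffVec s.2.2 ∉ relSpan s.2.1 s.2.2 x} else ∅
  have hB : ∀ s, (B s).Countable := by
    intro s
    simp only [B]
    split_ifs with h
    · exact (finite_bad h _).countable
    · exact Set.countable_empty
  refine (Set.countable_iUnion hB).mono fun p hp => ?_
  obtain ⟨m, G, i, hG, hbad⟩ := exists_bad_data hp.1.le hp.2.1.le hp.2.2
  refine Set.mem_iUnion.2 ⟨⟨m, G, i⟩, ?_⟩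
  simp only [B, if_pos hG]
  exact hbad

theorem exists_not_subtransitive : ∃ p : ℝ, 0 < p ∧ p < 1 ∧ ¬ IsSubtransitive (kite p) := by
  by_contra h
  have hsub : Set.Ioo (0 : ℝ) 1 ⊆ {p : ℝ | 0 < p ∧ p < 1 ∧ IsSubtransitive (kite p)} :=
    fun p hp => ⟨hp.1, hp.2, by_contra fun hn => h ⟨p, hp.1, hp.2, hn⟩⟩
  have := countable_subtransitive.mono hsub
  rw [← Cardinal.le_aleph0_iff_set_countable, Cardinal.mk_Ioo_real (by norm_num : (0 : ℝ) < 1)]
    at this
  exact absurd this (not_le.2 Cardinal.aleph0_lt_continuum)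

end Vale.Agent.P058
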