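import Vale.Agent.P058.LRW.Fam

/-! Word families at all levels give Ramsey sets. -/

namespace Vale.Agent.P058

open Filter

theorem exists_lim {κ : Type*} [Finite κ] (g : ℕ → κ) :
    ∃ k, {x | g x = k} ∈ hyperfilter ℕ := by
  obtain ⟨k, hk⟩ := ((hyperfilter ℕ).map g).eq_pure_of_finite
  exact ⟨k, Ultrafilter.mem_map.1 (show ({k} : Set κ) ∈ (hyperfilter ℕ).map g by rw [hk]; simp)⟩

theorem exists_good {κ : Type*} [Finite κ] : ∀ (n : ℕ) (c : (Fin n → ℕ) → κ),
    ∃ col, ∃ G : ℕ → Set ℕ, (∀ m, G m ∈ hyperfilter ℕ) ∧ ∀ q : Fin n → ℕ, StrictMono q →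
      (∀ j m, (m = 0 ∨ ∃ i, i < j ∧ m = q i + 1) → q j ∈ G m) → c q = col := by
  intro n
  induction n with
  | zero =>
    intro c
    exact ⟨c Fin.elim0, fun _ => Set.univ, fun _ => univ_mem,
      fun q _ _ => congrArg c (funext fun i => i.elim0)⟩
  | succ n ih =>
    intro c
    choose lim hlim using fun s : Fin n → ℕ => exists_lim fun x => c (Fin.snoc s x)
    obtain ⟨col, G', hG', hc'⟩ := ih lim
    refine ⟨col, fun m => G' m ∩
      ⋂ s : Fin n → Fin m, {x | c (Fin.snoc (fun i => (s i : ℕ)) x) = lim (fun i => (s i : ℕ))},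
      fun m => inter_mem (hG' m) (iInter_mem.2 fun s => hlim _), fun q hq hgood => ?_⟩
    have h1 : lim (fun i => q i.castSucc) = col := by
      refine hc' _ (fun a b hab => hq (Fin.castSucc_lt_castSucc_iff.2 hab)) fun j m hm => ?_
      refine (hgood j.castSucc m ?_).1
      rcases hm with hm | ⟨i, hi, hm⟩
      · exact Or.inl hm
      · exact Or.inr ⟨i.castSucc, Fin.castSucc_lt_castSucc_iff.2 hi, hm⟩
    have h2 : ∃ m, (m = 0 ∨ ∃ i, i < Fin.last n ∧ m = q i + 1) ∧
        ∀ i : Fin n, q i.castSucc < m := by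
      rcases n with _ | k
      · exact ⟨0, Or.inl rfl, fun i => i.elim0⟩
      · refine ⟨q (Fin.last k).castSucc + 1,
          Or.inr ⟨_, Fin.castSucc_lt_last _, rfl⟩, fun i => ?_⟩
        have := hq.monotone (Fin.castSucc_le_castSucc_iff.2 (Fin.le_last i))
        omega
    obtain ⟨m, hm, hlt⟩ := h2
    have h3 := Set.mem_iInter.1 (hgood (Fin.last n) m hm).2 fun i => ⟨q i.castSucc, hlt i⟩
    rw [Set.mem_setOf_eq] at h3
    change c (Fin.snoc (fun i => q i.castSucc) (q (Fin.last n))) = lim (fun i => q i.castSucc) at h3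
    have h4 : (Fin.snoc (fun i => q i.castSucc) (q (Fin.last n)) : Fin (n + 1) → ℕ) = q :=
      Fin.snoc_init_self q
    rw [h4] at h3
    rw [h3, h1]

/-- The infinite Ramsey theorem for increasing tuples. -/
theorem ramsey_tuples {κ : Type*} [Finite κ] (n : ℕ) (c : (Fin n → ℕ) → κ) :
    ∃ u : ℕ → ℕ, StrictMono u ∧ ∃ col, ∀ q : Fin n → ℕ, StrictMono q → c (u ∘ q) = col := by
  obtain ⟨col, G, hG, hc⟩ := exists_good n c
  have hsel : ∀ M, ∃ x, M ≤ x ∧ ∀ m, m ≤ M → x ∈ G m := by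
    intro M
    have h : {x | M ≤ x} ∩ (⋂ m : Fin (M + 1), G m) ∈ hyperfilter ℕ :=
      inter_mem ((hyperfilter_le_cofinite (α := ℕ)) (by
        rw [mem_cofinite]
        exact (Set.finite_lt_nat M).subset fun x hx => by
          simp only [Set.mem_compl_iff, Set.mem_setOf_eq, not_le] at hx
          exact hx)) (iInter_mem.2 fun m => hG m)
    obtain ⟨x, hx1, hx2⟩ := Ultrafilter.nonempty_of_mem h
    exact ⟨x, hx1, fun m hm => Set.mem_iInter.1 hx2 ⟨m, by omega⟩⟩
  choose next hnext1 hnext2 using hsel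
  let u : ℕ → ℕ := fun i => Nat.rec (next 0) (fun _ prev => next (prev + 1)) i
  have hu : StrictMono u := strictMono_nat_of_lt_succ fun i =>
    Nat.lt_of_succ_le (hnext1 (u i + 1))
  refine ⟨u, hu, col, fun q hq => hc _ (hu.comp hq) fun j m hm => ?_⟩
  show u (q j) ∈ G m
  rcases hm with hm | ⟨i, hi, hm⟩
  · subst hm
    rcases q j with _ | k
    · exact hnext2 0 0 le_rfl
    · exact hnext2 _ 0 (Nat.zero_le _)
  · subst hm
    obtain ⟨k, hk⟩ : ∃ k, q j = k + 1 := ⟨q j - 1, by have := hq hi; omega⟩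
    rw [hk]
    refine hnext2 (u k + 1) _ ?_
    have h1 : q i ≤ k := by have := hq hi; omega
    have := hu.monotone h1
    simp only [Function.comp_apply]
    omega

theorem mono_copy {d : ℕ} {κ : Type} [Fintype κ] [Nonempty κ]
    (x : κ → EuclideanSpace ℝ (Fin d))
    (h : ∀ N, Fam (fun (i : Fin (N + 1)) a b => (1 / ((i : ℝ) + 1)) * dist (x a) (x b) ^ 2))
    {r : ℕ} (χ : (ℕ →₀ ℝ) → Fin r) :
    ∃ y : κ → ℕ →₀ ℝ, ∃ M : ℕ, (∀ a b, χ (y a) = χ (y b)) ∧
      ∀ n, M ≤ n → ∀ a b, ∑ i ∈ Finset.range n, (y a i - y b i) ^ 2 = dist (x a) (x b) ^ 2 := by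
  classical
  obtain ⟨ι, hι, hHJ⟩ := Combinatorics.Line.exists_mono_in_high_dimension κ (Fin r)
  obtain ⟨N, ⟨e⟩⟩ := Finite.exists_equiv_fin ι
  obtain ⟨L, P, w, π, hm, hD⟩ := h N
  let word : (ι → κ) → Fin (N * L) → ℝ := fun f l =>
    w (f (e.symm (finProdFinEquiv.symm l).1)) (finProdFinEquiv.symm l).2
  obtain ⟨u, hu, col, hcol⟩ := ramsey_tuples (N * L)
    (fun q : Fin (N * L) → ℕ => fun f : ι → κ => χ (∑ l, Finsupp.single (q l) (word f l)))
  obtain ⟨ℓ, k, hk⟩ := hHJ col
  let act : Finset (Fin N) := Finset.univ.filter fun j => ℓ.idxFun (e.symm j) = none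
  have hact0 : 0 < act.card := by
    obtain ⟨i, hi⟩ := ℓ.proper
    exact Finset.card_pos.2 ⟨e i, by simp [act, hi]⟩
  have hactN : act.card ≤ N := by simpa using Finset.card_le_univ act
  let i0 : Fin (N + 1) := ⟨act.card - 1, by omega⟩
  obtain ⟨a0⟩ := ‹Nonempty κ›
  let π' : κ → Fin N → Fin L → Fin P := fun a j => if j ∈ act then π i0 a else π 0 a0
  have hπ' : ∀ a j, StrictMono (π' a j) := by
    intro a j
    simp only [π']
    split_ifs
    · exact hm _ _
    · exact hm _ _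
  let ρ : κ → Fin (N * L) → Fin (N * P) := fun a l =>
    finProdFinEquiv ((finProdFinEquiv.symm l).1,
      π' a (finProdFinEquiv.symm l).1 (finProdFinEquiv.symm l).2)
  have hρ : ∀ a, StrictMono (ρ a) := by
    intro a l l' hll
    obtain ⟨⟨j, t⟩, rfl⟩ := finProdFinEquiv.surjective l
    obtain ⟨⟨j', t'⟩, rfl⟩ := finProdFinEquiv.surjective l'
    simp only [ρ, Equiv.symm_apply_apply]
    rw [Fin.lt_def, finProdFinEquiv_apply_val, finProdFinEquiv_apply_val] at hll ⊢
    simp only at hll ⊢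
    have ht := t.isLt
    have ht' := t'.isLt
    have hp := (π' a j t).isLt
    rcases lt_trichotomy (j : ℕ) j' with hj | hj | hj
    · have : P * ((j : ℕ) + 1) ≤ P * j' := Nat.mul_le_mul_left _ hj
      rw [Nat.mul_add, Nat.mul_one] at this
      omega
    · have hjj : j = j' := Fin.ext hj
      subst hjj
      have h1 : t < t' := by
        rw [Fin.lt_def]
        omega
      have h2 := hπ' a j h1
      rw [Fin.lt_def] at h2
      omega
    · have : L * ((j' : ℕ) + 1) ≤ L * j := Nat.mul_le_mul_left _ hj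
      rw [Nat.mul_add, Nat.mul_one] at this
      omega
  let y : κ → ℕ →₀ ℝ := fun a => ∑ l, Finsupp.single (u (ρ a l : ℕ)) (word (ℓ a) l)
  refine ⟨y, u (N * P), fun a b => ?_, fun n hn a b => ?_⟩
  · have hy : ∀ a, χ (y a) = k := by
      intro a
      have := congrFun (hcol (fun l => (ρ a l : ℕ)) fun l l' hll => hρ a hll) (ℓ a)
      exact this.trans (hk a)
    rw [hy, hy]
  · have hy : ∀ a i, y a i = ∑ l, if u (ρ a l : ℕ) = i then word (ℓ a) l else 0 := by
      intro a i
      simp only [y, Finsupp.finsetSum_apply, Finsupp.single_apply]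
    have hyu : ∀ a (t : Fin (N * P)), y a (u (t : ℕ)) = place (ρ a) (word (ℓ a)) t := by
      intro a t
      rw [hy]
      refine Finset.sum_congr rfl fun l _ => if_congr ?_ rfl rfl
      rw [hu.injective.eq_iff, Fin.val_inj]
    have hy0 : ∀ a i, (∀ t : Fin (N * P), u (t : ℕ) ≠ i) → y a i = 0 := by
      intro a i hi
      rw [hy]
      exact Finset.sum_eq_zero fun l _ => if_neg (hi _)
    have hsub : (Finset.univ.image fun t : Fin (N * P) => u (t : ℕ)) ⊆ Finset.range n := by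
      intro i hi
      obtain ⟨t, -, rfl⟩ := Finset.mem_image.1 hi
      exact Finset.mem_range.2 (lt_of_lt_of_le (hu t.isLt) hn)
    rw [← Finset.sum_subset hsub, Finset.sum_image]
    rotate_left
    · exact fun s _ t _ hst => Fin.ext (hu.injective hst)
    · intro i _ hi
      have : ∀ t : Fin (N * P), u (t : ℕ) ≠ i := fun t ht =>
        hi (Finset.mem_image.2 ⟨t, Finset.mem_univ _, ht⟩)
      rw [hy0 a i this, hy0 b i this]
      norm_num
    simp only [hyu]
    have hpl : ∀ c (j : Fin N) (t : Fin P), place (ρ c) (word (ℓ c)) (finProdFinEquiv (j, t))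
        = place (π' c j) (w (ℓ c (e.symm j))) t := by
      intro c j t
      rw [place, ← Equiv.sum_comp finProdFinEquiv, Fintype.sum_prod_type,
        Finset.sum_eq_single j]
      · refine Finset.sum_congr rfl fun l _ => ?_
        simp only [ρ, word, Equiv.symm_apply_apply, finProdFinEquiv.injective.eq_iff,
          Prod.mk.injEq, true_and]
      · intro j' _ hj'
        refine Finset.sum_eq_zero fun l _ => ?_
        simp only [ρ, Equiv.symm_apply_apply, finProdFinEquiv.injective.eq_iff,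
          Prod.mk.injEq, hj', false_and, if_false]
      · simp
    rw [← Equiv.sum_comp finProdFinEquiv, Fintype.sum_prod_type]
    simp only [hpl]
    have hslot : ∀ j, (∑ t, (place (π' a j) (w (ℓ a (e.symm j))) t
        - place (π' b j) (w (ℓ b (e.symm j))) t) ^ 2)
        = if j ∈ act then 1 / ((i0 : ℕ) + 1 : ℝ) * dist (x a) (x b) ^ 2 else 0 := by
      intro j
      by_cases hj : j ∈ act
      · have hn : ℓ.idxFun (e.symm j) = none := (Finset.mem_filter.1 hj).2
        rw [if_pos hj, Combinatorics.Line.apply_none ℓ a _ hn,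
          Combinatorics.Line.apply_none ℓ b _ hn]
        simp only [π', if_pos hj]
        exact hD i0 a b
      · rw [if_neg hj]
        obtain ⟨c, hc⟩ : ∃ c, ℓ.idxFun (e.symm j) = some c :=
          Option.ne_none_iff_exists'.1 fun hn => hj (Finset.mem_filter.2 ⟨Finset.mem_univ _, hn⟩)
        rw [Combinatorics.Line.apply_some hc, Combinatorics.Line.apply_some hc]
        simp [π', if_neg hj]
    simp only [hslot]
    rw [Finset.sum_ite_mem, Finset.univ_inter, Finset.sum_const, nsmul_eq_mul]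
    have hi0 : ((i0 : ℕ) : ℝ) + 1 = (act.card : ℝ) := by
      have : (i0 : ℕ) + 1 = act.card := by simp only [i0]; omega
      exact_mod_cast this
    rw [hi0]
    have : (act.card : ℝ) ≠ 0 := by exact_mod_cast hact0.ne'
    field_simp

/-- If suitable words exist at all levels then the set is Ramsey. -/
theorem isRamsey_of_fam {d : ℕ} {κ : Type} [Fintype κ] [Nonempty κ]
    (x : κ → EuclideanSpace ℝ (Fin d))
    (h : ∀ N, Fam (fun (i : Fin (N + 1)) a b => (1 / ((i : ℝ) + 1)) * dist (x a) (x b) ^ 2)) :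
    IsRamsey (Set.range x) := by
  classical
  intro r _
  by_contra hne
  have hbad : ∀ n : ℕ, ∃ c : EuclideanSpace ℝ (Fin (n + 1)) → Fin r,
      ∀ f : EuclideanSpace ℝ (Fin d) → EuclideanSpace ℝ (Fin (n + 1)),
        (∀ z ∈ Set.range x, ∀ z' ∈ Set.range x, dist (f z) (f z') = dist z z') →
          ∀ k, ∃ z ∈ Set.range x, c (f z) ≠ k := by
    intro n
    by_contra hn
    refine hne ⟨n + 1, by omega, fun c => ?_⟩
    by_contra hc
    refine hn ⟨c, fun f hf k => ?_⟩
    by_contra hk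
    exact hc ⟨f, hf, k, fun z hz => by_contra fun hz' => hk ⟨z, hz, hz'⟩⟩
  choose c hc using hbad
  let pr : (n : ℕ) → (ℕ →₀ ℝ) → EuclideanSpace ℝ (Fin (n + 1)) := fun n z =>
    WithLp.toLp 2 fun i => z (i : ℕ)
  choose χ hχ using fun z : ℕ →₀ ℝ => exists_lim fun n => c n (pr n z)
  obtain ⟨y, M, hmono, hdist⟩ := mono_copy x h χ
  have hset : {n : ℕ | M ≤ n} ∩ (⋂ a, {n | c n (pr n (y a)) = χ (y a)}) ∈ hyperfilter ℕ :=
    inter_mem ((hyperfilter_le_cofinite (α := ℕ)) (by
      rw [mem_cofinite]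
      exact (Set.finite_lt_nat M).subset fun z hz => by
        simp only [Set.mem_compl_iff, Set.mem_setOf_eq, not_le] at hz
        exact hz)) (iInter_mem.2 fun a => hχ _)
  obtain ⟨n, hn1, hn2⟩ := Ultrafilter.nonempty_of_mem hset
  rw [Set.mem_setOf_eq] at hn1
  let f : EuclideanSpace ℝ (Fin d) → EuclideanSpace ℝ (Fin (n + 1)) := fun z =>
    if hz : ∃ a, x a = z then pr n (y hz.choose) else 0
  have hf : ∀ a, ∃ b, x b = x a ∧ f (x a) = pr n (y b) := fun a =>
    ⟨(⟨a, rfl⟩ : ∃ b, x b = x a).choose, (⟨a, rfl⟩ : ∃ b, x b = x a).choose_spec,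
      dif_pos ⟨a, rfl⟩⟩
  obtain ⟨a0⟩ := ‹Nonempty κ›
  obtain ⟨z, hz, hz'⟩ := hc n f (by
    rintro _ ⟨a, rfl⟩ _ ⟨b, rfl⟩
    obtain ⟨a', ha', hfa⟩ := hf a
    obtain ⟨b', hb', hfb⟩ := hf b
    rw [hfa, hfb, EuclideanSpace.dist_eq, ← ha', ← hb']
    have e : ∑ i : Fin (n + 1), dist ((pr n (y a')) i) ((pr n (y b')) i) ^ 2
        = dist (x a') (x b') ^ 2 := by
      rw [← hdist (n + 1) (by omega) a' b',
        ← Fin.sum_univ_eq_sum_range fun i => (y a' i - y b' i) ^ 2]
      exact Finset.sum_congr rfl fun i _ => by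
        simp only [pr, Real.dist_eq, sq_abs]
    rw [e, Real.sqrt_sq dist_nonneg]) (χ (y a0))
  obtain ⟨a, rfl⟩ := hz
  obtain ⟨b, -, hfb⟩ := hf a
  exact hz' (by rw [hfb, Set.mem_iInter.1 hn2 b, hmono])

end Vale.Agent.P058
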